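import Vale.Agent.P273.H973.Germ

/-!
# P273, row GAUGE-I (helper653): the field `chg` of the gauge
-/

noncomputable section

namespace Vale.Agent.P273.H973

open Set Filter H681 H95
open scoped Topology ContDiff

/-- the inversion of one coordinate -/
def inv1 (p : E1) : E1 := (p.1, (p.2)⁻¹)

theorem contDiffAt_inv1 {p : E1} (hp : p.2 ≠ 0) : ContDiffAt ℝ ∞ inv1 p :=
  contDiffAt_fst.prodMk (contDiffAt_snd.inv hp)

theorem differentiableAt_inv1 {p : E1} (hp : p.2 ≠ 0) : DifferentiableAt ℝ inv1 p :=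
  (contDiffAt_inv1 hp).differentiableAt (by simp)

theorem inv1_inv1 (p : E1) : inv1 (inv1 p) = p := by
  unfold inv1
  simp

theorem fderiv_inv1_comp {p : E1} (hp : p.2 ≠ 0) :
    (fderiv ℝ inv1 (inv1 p)).comp (fderiv ℝ inv1 p) = ContinuousLinearMap.id ℝ E1 := by
  have h1 : (inv1 p).2 ≠ 0 := inv_ne_zero hp
  have h2 := (differentiableAt_inv1 h1).hasFDerivAt.comp p (differentiableAt_inv1 hp).hasFDerivAt
  have h3 : inv1 ∘ inv1 = (id : E1 → E1) := funext inv1_inv1
  rw [h3] at h2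
  exact h2.unique (hasFDerivAt_id p)

theorem pol_flip {s s' : Bool} (hs : s ≠ s') (b : C6) {z : ℂ} (hz : z ≠ 0) :
    pol s' (rts b) z⁻¹ = (z⁻¹) ^ 6 * pol s (rts b) z := by
  cases s <;> cases s'
  · exact absurd rfl hs
  · simp only [pol, if_true, Bool.false_eq_true, if_false]
    rw [sw_eq _ (inv_ne_zero hz), inv_inv]
  · simp only [pol, if_true, Bool.false_eq_true, if_false]
    rw [sw_eq _ hz, ← mul_assoc, ← mul_pow, inv_mul_cancel₀ hz, one_pow, one_mul]
  · exact absurd rfl hs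

theorem flip_snd_eq {S S' : L → Bool} {j : L} (h : S j = S' j) (e : E) :
    (H95.flip S S' e).2 j = e.2 j := by
  unfold H95.flip
  simp only [h, if_true]

theorem flip_snd_ne {S S' : L → Bool} {j : L} (h : S j ≠ S' j) (e : E) :
    (H95.flip S S' e).2 j = (e.2 j)⁻¹ := by
  unfold H95.flip
  simp only [if_neg h]

theorem flipv_eq {S S' : L → Bool} {j : L} (h : S j = S' j) (z v : L → ℂ) :
    flipv S S' z v j = v j := by
  unfold flipv
  simp only [h, if_true]

theorem flipv_ne {S S' : L → Bool} {j : L} (h : S j ≠ S' j) (z v : L → ℂ) :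
    flipv S S' z v j = v j * ((z j)⁻¹) ^ 3 := by
  unfold flipv
  simp only [if_neg h]

theorem flip_onC {S S' : L → Bool} {e : E} {v : L → ℂ} (hO : OnC S (rts e.1) e.2 v)
    (hz : ∀ j, S j ≠ S' j → e.2 j ≠ 0) :
    OnC S' (rts (H95.flip S S' e).1) (H95.flip S S' e).2 (flipv S S' e.2 v) := by
  intro j
  show _ = pol (S' j) (rts e.1) _ ∧ _
  by_cases h : S j = S' j
  · rw [flip_snd_eq h, flipv_eq h, ← h]
    exact hO j
  · rw [flip_snd_ne h, flipv_ne h, pol_flip h _ (hz j h), mul_pow, (hO j).1]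
    refine ⟨by ring, mul_ne_zero (hO j).2 (pow_ne_zero 3 (inv_ne_zero (hz j h)))⟩

theorem flip_PP {S S' : L → Bool} {e : E} {v : L → ℂ}
    (hz : ∀ j, S j ≠ S' j → e.2 j ≠ 0) (t : Bool) :
    PP S' t (H95.flip S S' e) (flipv S S' e.2 v) = PP S t e v := by
  funext k
  have key : Xp S' (H95.flip S S' e) (k, t) = Xp S e (k, t) ∧
      Yp S' (H95.flip S S' e) (flipv S S' e.2 v) (k, t) = Yp S e v (k, t) := by
    unfold Xp Yp
    by_cases h : S (k, t) = S' (k, t)
    · rw [flip_snd_eq h, flipv_eq h, h]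
      exact ⟨rfl, rfl⟩
    · have hz' := hz _ h
      rw [flip_snd_ne h, flipv_ne h]
      cases h1 : S (k, t) <;> cases h2 : S' (k, t)
      · exact absurd (h1.trans h2.symm) h
      · simp only [if_true, Bool.false_eq_true, if_false, inv_inv]
        refine ⟨trivial, ?_⟩
        rw [mul_assoc, ← mul_pow, inv_mul_cancel₀ hz', one_pow, mul_one]
      · simp only [if_true, Bool.false_eq_true, if_false]
        exact ⟨trivial, trivial⟩
      · exact absurd (h1.trans h2.symm) h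
  unfold PP
  rw [key.1, key.2]

theorem flip_fin {S S' : L → Bool} {e : E} (hz : ∀ j, S j ≠ S' j → e.2 j ≠ 0) (t : Bool) :
    fin S' t (H95.flip S S' e) = fin S t e := by
  funext k
  unfold fin
  by_cases h : S (k, t) = S' (k, t)
  · rw [flip_snd_eq h, h]
  · have hz' := hz _ h
    rw [flip_snd_ne h]
    apply propext
    constructor
    · intro _ h1
      exact hz' h1.2
    · intro _ h1
      exact inv_ne_zero hz' h1.2

theorem contDiffAt_flip {S S' : L → Bool} {e : E} (hz : ∀ j, S j ≠ S' j → e.2 j ≠ 0) :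
    ContDiffAt ℝ ∞ (H95.flip S S') e := by
  have h1 : ContDiffAt ℝ ∞ (fun p : E => fun j => if S j = S' j then p.2 j else (p.2 j)⁻¹) e := by
    rw [contDiffAt_pi]
    intro j
    by_cases h : S j = S' j
    · simp only [if_pos h]
      exact contDiffAt_coord j
    · simp only [if_neg h]
      exact (contDiffAt_coord j).inv (hz j h)
  exact contDiffAt_fst.prodMk h1

/-- the branch in the other charts -/
theorem flip_branch {S S' : L → Bool} {V V1 : E → L → ℂ} {e : E} (h : BrE S V e)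
    (h1 : BrE S' V1 (H95.flip S S' e)) (hz : ∀ j, S j ≠ S' j → e.2 j ≠ 0)
    (he : V1 (H95.flip S S' e) = flipv S S' e.2 (V e)) :
    ∀ᶠ e' in 𝓝 e, (∀ j, S j ≠ S' j → e'.2 j ≠ 0) ∧
      V1 (H95.flip S S' e') = flipv S S' e'.2 (V e') := by
  have hz' : ∀ᶠ e' in 𝓝 e, ∀ j, S j ≠ S' j → e'.2 j ≠ 0 := by
    refine eventually_all.2 fun j => ?_
    by_cases hj : S j = S' j
    · filter_upwards with e' h2
      exact absurd hj h2
    · filter_upwards [(contDiffAt_coord j).continuousAt.eventually_ne (hz j hj)] with e' h2 _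
      exact h2
  have hf : ContinuousAt (H95.flip S S') e := (contDiffAt_flip hz).continuousAt
  have key : ∀ j, ∀ᶠ e' in 𝓝 e, V1 (H95.flip S S' e') j = flipv S S' e'.2 (V e') j := by
    intro j
    refine H578.eventuallyEq_of_sq
      (ContinuousAt.comp (f := H95.flip S S') (h1.smooth j).continuousAt hf) ?_ ?_
      (congrFun he j) (h1.onC j).2
    · by_cases hj : S j = S' j
      · simp only [flipv_eq hj]
        exact (h.smooth j).continuousAt
      · simp only [flipv_ne hj]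
        exact (h.smooth j).continuousAt.mul
          (((contDiffAt_coord j).continuousAt.inv₀ (hz j hj)).pow 3)
    · filter_upwards [hz', h.ev, hf.eventually h1.ev] with e' h2 h3 h4
      rw [(h4.2.1 j).1, (flip_onC h3.2.1 h2 j).1]
  filter_upwards [hz', eventually_all.2 key] with e' h2 h3
  exact ⟨h2, funext h3⟩

theorem prj_flip_eq {S S' : L → Bool} {e : E} (hz : ∀ j, S j ≠ S' j → e.2 j ≠ 0) {j : L}
    (h : S j = S' j) : (prj j).comp (fderiv ℝ (H95.flip S S') e) = prj j := by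
  have h1 := ((prj j).hasFDerivAt (x := H95.flip S S' e)).comp e
    ((contDiffAt_flip hz).differentiableAt (by simp)).hasFDerivAt
  have h2 : (prj j : E → E1) ∘ H95.flip S S' = prj j := by
    funext p
    show ((H95.flip S S' p).1, (H95.flip S S' p).2 j) = (p.1, p.2 j)
    rw [flip_snd_eq h]
    rfl
  rw [h2] at h1
  exact h1.unique (prj j).hasFDerivAt

theorem prj_flip_ne {S S' : L → Bool} {e : E} (hz : ∀ j, S j ≠ S' j → e.2 j ≠ 0) {j : L}
    (h : S j ≠ S' j) : (prj j).comp (fderiv ℝ (H95.flip S S') e) =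
      (fderiv ℝ inv1 (prj j e)).comp (prj j) := by
  have h1 := ((prj j).hasFDerivAt (x := H95.flip S S' e)).comp e
    ((contDiffAt_flip hz).differentiableAt (by simp)).hasFDerivAt
  have h2 : (prj j : E → E1) ∘ H95.flip S S' = inv1 ∘ prj j := by
    funext p
    show ((H95.flip S S' p).1, (H95.flip S S' p).2 j) = (p.1, (p.2 j)⁻¹)
    rw [flip_snd_ne h]
    rfl
  rw [h2] at h1
  have h3 : HasFDerivAt (inv1 ∘ prj j) ((fderiv ℝ inv1 (prj j e)).comp (prj j)) e :=
    HasFDerivAt.comp e (g := inv1) (differentiableAt_inv1 (p := prj j e) (hz j h)).hasFDerivAt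
      (prj j).hasFDerivAt
  exact h1.unique h3

/-- the one mark form in the other charts -/
theorem etaE_flip (O : One) {ξ : Fin 6 → ℝ} (hξ : IsCl ξ) {S S' : L → Bool} {V V1 : E → L → ℂ}
    {e : E} (h : BrE S V e) (hz : ∀ j, S j ≠ S' j → e.2 j ≠ 0)
    (he : V1 (H95.flip S S' e) = flipv S S' e.2 (V e)) (j : L) :
    etaE O ξ S V j e =
      (etaE O ξ S' V1 j (H95.flip S S' e)).comp (fderiv ℝ (H95.flip S S') e) := by
  unfold etaE
  rw [ContinuousLinearMap.comp_assoc, he]
  by_cases hj : S j = S' j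
  · rw [prj_flip_eq hz hj, flipv_eq hj, hj]
    show (O.η ξ (S' j) (e.1, e.2 j) (V e j)).comp (prj j) =
      (O.η ξ (S' j) (e.1, (H95.flip S S' e).2 j) (V e j)).comp (prj j)
    rw [flip_snd_eq hj]
  · have hz' := hz j hj
    rw [prj_flip_ne hz hj, flipv_ne hj, ← ContinuousLinearMap.comp_assoc]
    congr 1
    show O.η ξ (S j) (e.1, e.2 j) (V e j) =
      (O.η ξ (S' j) (e.1, (H95.flip S S' e).2 j) (V e j * ((e.2 j)⁻¹) ^ 3)).comp
        (fderiv ℝ inv1 (e.1, e.2 j))
    rw [flip_snd_ne hj]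
    have hO := h.onC j
    cases h1 : S j <;> cases h2 : S' j
    · exact absurd (h1.trans h2.symm) hj
    · rw [h1] at hO
      exact O.chg ξ (e.1, e.2 j) (V e j) hξ h.mem hz' hO
    · rw [h1] at hO
      have hon : On1 false (e.1, (e.2 j)⁻¹) (V e j * ((e.2 j)⁻¹) ^ 3) := by
        refine ⟨?_, mul_ne_zero hO.2 (pow_ne_zero 3 (inv_ne_zero hz'))⟩
        show (V e j * ((e.2 j)⁻¹) ^ 3) ^ 2 = pol false (rts e.1) (e.2 j)⁻¹
        rw [pol_flip (s := true) (by simp) _ hz', mul_pow, hO.1]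
        ring
      have h3 := O.chg ξ (e.1, (e.2 j)⁻¹) (V e j * ((e.2 j)⁻¹) ^ 3) hξ h.mem
        (inv_ne_zero hz') hon
      rw [h3, ContinuousLinearMap.comp_assoc]
      have h4 : (fderiv ℝ (fun p : E1 => ((p.1, (p.2)⁻¹) : E1)) (e.1, (e.2 j)⁻¹)).comp
          (fderiv ℝ inv1 (e.1, e.2 j)) = ContinuousLinearMap.id ℝ E1 :=
        fderiv_inv1_comp (p := (e.1, e.2 j)) hz'
      rw [h4, ContinuousLinearMap.comp_id]
      show _ = O.η ξ true (e.1, (e.2 j)⁻¹⁻¹) (V e j * ((e.2 j)⁻¹) ^ 3 * ((e.2 j)⁻¹⁻¹) ^ 3)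
      rw [inv_inv, mul_assoc, ← mul_pow, inv_mul_cancel₀ hz', one_pow, mul_one]
    · exact absurd (h1.trans h2.symm) hj

/-- the field `chg` along branches -/
theorem thE_flip (O : One) {ξ : Fin 6 → ℝ} (hξ : IsCl ξ) {S S' : L → Bool} {V V1 : E → L → ℂ}
    {e : E} (h : BrE S V e) (h1 : BrE S' V1 (H95.flip S S' e))
    (hz : ∀ j, S j ≠ S' j → e.2 j ≠ 0)
    (he : V1 (H95.flip S S' e) = flipv S S' e.2 (V e)) (j : L) :
    thE O ξ S V j e = (thE O ξ S' V1 j (H95.flip S S' e)).comp (fderiv ℝ (H95.flip S S') e) := by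
  have hb := flip_branch h h1 hz he
  unfold thE
  refine theta_comp (φ := H95.flip S S') ?_ ?_ (etaE_flip O hξ h hz he (j.1, j.2))
    ((contDiffAt_flip hz).differentiableAt (by simp))
    ((gfun_smooth (t := j.2) O hξ h1 j.1).differentiableAt (by simp))
  · filter_upwards [hb] with e' h2 k l _
    unfold cE
    rw [h2.2, flip_PP h2.1, flip_fin h2.1]
    rfl
  · filter_upwards [hb] with e' h2 k l _
    unfold pE
    rw [h2.2, flip_PP h2.1, flip_fin h2.1]
    rfl

/-- the field `chg` -/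
theorem th_chg (O : One) (j : L) (ξ : Fin 6 → ℝ) (S S' : L → Bool) (e : E) (v : L → ℂ)
    (hξ : IsCl ξ) (hX : e.1 ∈ XX) (hO : OnC S (rts e.1) e.2 v)
    (hz : ∀ j, S j ≠ S' j → e.2 j ≠ 0) :
    th O j ξ S e v =
      (th O j ξ S' (H95.flip S S' e) (flipv S S' e.2 v)).comp (fderiv ℝ (H95.flip S S') e) := by
  have h := brE_BrE hX hO
  have hO1 := flip_onC hO hz
  have h1 : BrE S' (brE S' (H95.flip S S' e) (flipv S S' e.2 v)) (H95.flip S S' e) :=
    brE_BrE hX hO1
  have e1 := th_self O ξ h j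
  have e2 := th_self O ξ h1 j
  rw [brE_self hO] at e1
  rw [brE_self hO1] at e2
  rw [e1, e2]
  refine thE_flip O hξ h h1 hz ?_ j
  rw [brE_self hO, brE_self hO1]

end Vale.Agent.P273.H973

end
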