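import Vale.Agent.P273.H973.Germ

/-!
# P273, row GAUGE-I (helper653): the field `reg` of the gauge
-/

noncomputable section

namespace Vale.Agent.P273.H973

open Set Filter H681 H95
open scoped Topology ContDiff

/-- **from germs along a branch to `Near`** -/
theorem BrE.near_of_germ {M : Type} [NormedAddCommGroup M] [NormedSpace ℝ M] {S : L → Bool}
    {V : E → L → ℂ} {G : E → (L → ℂ) → M} {P : (E → M) → E → Prop} {e : E}
    (h : BrE S V e) {g : E → M} (hg : ∀ᶠ p in 𝓝 e, ContDiffAt ℝ ∞ g p)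
    (hP : ∀ᶠ p in 𝓝 e, P g p) (hG : ∀ᶠ p in 𝓝 e, G p (V p) = g p) :
    Near rts S G P e (V e) := by
  obtain ⟨r, hr, h1⟩ := h.near
  obtain ⟨W, hW1, hWo, heW⟩ := eventually_nhds_iff.1 (hP.and (hG.and (h1.and hg)))
  refine ⟨W, g, r, hWo, heW, hr, fun p hp => ((hW1 p hp).2.2.2).contDiffWithinAt,
    fun p hp => (hW1 p hp).1, fun p hp v' hv' hvr => ?_⟩
  rw [← (hW1 p hp).2.1, (hW1 p hp).2.2.1 v' hv' hvr]

/-- the field `reg` -/
theorem th_reg (O : One) (j : L) (ξ : Fin 6 → ℝ) (S : L → Bool) (e : E) (v : L → ℂ)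
    (hξ : IsCl ξ) (hX : e.1 ∈ XX) (hO : OnC S (rts e.1) e.2 v) :
    Near rts S (th O j ξ S) (fun g p => ∀ u w, fderiv ℝ g p u w = fderiv ℝ g p w u) e v := by
  have h := brE_BrE hX hO
  have h1 := thE_smooth_ev O hξ h j
  have h2 := h.near_of_germ (G := th O j ξ S) (g := thE O ξ S (brE S e v) j)
    (P := fun g p => ∀ u w, fderiv ℝ g p u w = fderiv ℝ g p w u)
    (by filter_upwards [h1] with p hp; exact hp.1)
    (by filter_upwards [h1] with p hp; exact hp.2) (th_eq O ξ h j)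
  rwa [brE_self hO] at h2

end Vale.Agent.P273.H973

end
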